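import Vale.Agent.P230.Gauss
import Vale.Agent.P230.Core
import Vale.Agent.P230.Reduce
import Vale.Agent.P230.Upper

/-!
P230: the worst-case translative covering density has order `n log n`.
-/

open MeasureTheory Filter

namespace Vale.Agent.Results.P230.CoveringOrder

/-- There is an absolute `c > 0` such that for all large `n` some convex body `K` in `ℝⁿ` has
`vol K · limsup #(X ∩ Q_R) / (2R)ⁿ ≥ c n log n` for every locally finite `X` with `K + X = ℝⁿ`;
hence no bound `θ_T(K) ≤ C n` holds. Conversely every convex body in dimension `n ≥ 2` has such a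
covering of density at most `200 n log n`. -/
theorem result :
    (∃ c : ℝ, 0 < c ∧ ∀ᶠ n : ℕ in atTop,
      ∃ K : Set (EuclideanSpace ℝ (Fin n)), Convex ℝ K ∧ IsCompact K ∧ (interior K).Nonempty ∧
        ∀ X : Set (EuclideanSpace ℝ (Fin n)),
          (∀ s : Set (EuclideanSpace ℝ (Fin n)), Bornology.IsBounded s → (X ∩ s).Finite) →
          (∀ y : EuclideanSpace ℝ (Fin n), ∃ x ∈ X, y - x ∈ K) →
          ENNReal.ofReal (c * n * Real.log n) ≤ limsup
            (fun R : ℝ => volume K * (({x ∈ X | ∀ i, |x i| ≤ R}.ncard : ℕ) : ENNReal) /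
              ENNReal.ofReal ((2 * R) ^ n)) atTop) ∧
    (∀ C : ℝ, ∀ᶠ n : ℕ in atTop,
      ∃ K : Set (EuclideanSpace ℝ (Fin n)), Convex ℝ K ∧ IsCompact K ∧ (interior K).Nonempty ∧
        ∀ X : Set (EuclideanSpace ℝ (Fin n)),
          (∀ s : Set (EuclideanSpace ℝ (Fin n)), Bornology.IsBounded s → (X ∩ s).Finite) →
          (∀ y : EuclideanSpace ℝ (Fin n), ∃ x ∈ X, y - x ∈ K) →
          ENNReal.ofReal (C * n) < limsup
            (fun R : ℝ => volume K * (({x ∈ X | ∀ i, |x i| ≤ R}.ncard : ℕ) : ENNReal) /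
              ENNReal.ofReal ((2 * R) ^ n)) atTop) ∧
    (∀ n : ℕ, 2 ≤ n → ∀ K : Set (EuclideanSpace ℝ (Fin n)),
      Convex ℝ K → IsCompact K → (interior K).Nonempty →
        ∃ X : Set (EuclideanSpace ℝ (Fin n)),
          (∀ s : Set (EuclideanSpace ℝ (Fin n)), Bornology.IsBounded s → (X ∩ s).Finite) ∧
          (∀ y : EuclideanSpace ℝ (Fin n), ∃ x ∈ X, y - x ∈ K) ∧
          limsup (fun R : ℝ => volume K * (({x ∈ X | ∀ i, |x i| ≤ R}.ncard : ℕ) : ENNReal) /
              ENNReal.ofReal ((2 * R) ^ n)) atTop ≤ ENNReal.ofReal (200 * n * Real.log n)) := by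
  have h := Vale.Agent.P230.densityProp_of Vale.Agent.P230.gaussProp Vale.Agent.P230.coreProp
  refine ⟨h, fun C => ?_, fun n hn K hc hk hi =>
    Vale.Agent.P230.Upper.exists_covering hn hc hk hi⟩
  obtain ⟨c, hc, h⟩ := h
  filter_upwards [h, (Real.tendsto_log_atTop.comp tendsto_natCast_atTop_atTop).eventually
    (eventually_gt_atTop (|C| / c)), eventually_gt_atTop 0] with n hn hlog hn0
  obtain ⟨K, h1, h2, h3, h4⟩ := hn
  refine ⟨K, h1, h2, h3, fun X hX hcov => lt_of_lt_of_le ?_ (h4 X hX hcov)⟩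
  simp only [Function.comp_apply] at hlog
  rw [div_lt_iff₀ hc] at hlog
  have hn' : (0 : ℝ) < n := by exact_mod_cast hn0
  have h5 : C * n < c * n * Real.log n := by
    nlinarith [le_abs_self C, mul_lt_mul_of_pos_right hlog hn']
  have h6 : 0 < c * n * Real.log n := by
    nlinarith [abs_nonneg C, mul_lt_mul_of_pos_right hlog hn']
  exact (ENNReal.ofReal_lt_ofReal_iff h6).2 h5

end Vale.Agent.Results.P230.CoveringOrder
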